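import Vale.Agent.P210.TP.Final210

open Vale.Agent.P210 Vale.Agent.P210.TP

/-- Gromov's codimension two width conjecture for all complete metrics
`w(x)|dx|² + ∑ h_ab(x,y) dy^a dy^b`, in every dimension `m ≥ 3`. -/
theorem Vale.Agent.Results.P210.TwistedProduct.result :
    ∀ m : ℕ, 3 ≤ m → ∃ C : ℝ,
      ∀ (n N : ℕ), 3 ≤ n → n + N = m →
      ∀ (Ω : Set (EI (Fin n))) (F : Set (EI (Fin N))) (w : EI (Fin n) → ℝ)
        (h : EI (Fin n) → EI (Fin N) → Matrix (Fin N) (Fin N) ℝ),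
        IsOpen Ω → IsOpen F →
        TP.IsRiemMetricOn (prod Ω F) (block (fun x => w x • 1) h) →
        (∃ y ∈ F, ∀ x ∈ Ω, TP.scal (h x) y ≤ 1 / 2) →
        TP.IsCompleteOn (prod Ω F) (block (fun x => w x • 1) h) →
        (∀ z ∈ prod Ω F, 1 ≤ TP.scal (block (fun x => w x • 1) h) z) →
        TP.UrysohnWidthLE (prod Ω F) (TP.rdist (prod Ω F) (block (fun x => w x • 1) h)) (m - 2) C ∧
        ∀ k : ℕ, k + 1 ≤ n → ((n : ℝ) - 1 - k) ^ 2 < (n : ℝ) - 1 →
          TP.UrysohnWidthLE (prod Ω F) (TP.rdist (prod Ω F) (block (fun x => w x • 1) h))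
            (k + N) C :=
  target2_final
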